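import Vale.Agent.P262.Main

namespace Vale.Agent.Results.P262.Steinitz
open Finset Vale.Agent.P262

theorem result : ∃ C : ℝ, ∀ (d N : ℕ) (v : Fin N → EuclideanSpace ℝ (Fin d)),
    (∀ i, ‖v i‖ ≤ 1) → ∑ i, v i = 0 →
    ∃ π : Equiv.Perm (Fin N), ∀ k : ℕ,
      ‖∑ i ∈ Finset.univ.filter (fun i : Fin N => i.val < k), v (π i)‖ ≤ C * Real.sqrt d := by
  refine ⟨10 ^ 18, fun d N v hv hs => ?_⟩
  rcases Nat.eq_zero_or_pos d with rfl | hd
  · exact ⟨Equiv.refl _, fun k => by rw [Subsingleton.elim (∑ _ ∈ _, _) 0]; simp⟩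
  have hn : ∀ x : EuclideanSpace ℝ (Fin d), nn x.ofLp = ‖x‖ ^ 2 := fun x => by
    rw [EuclideanSpace.norm_sq_eq]; simp [nn]
  obtain ⟨L, h1, h2⟩ := ordered (v := Matrix.of fun i => (v i).ofLp) (by simpa using hd)
    (fun i => (hn (v i)).trans_le (pow_le_one₀ (norm_nonneg _) (hv i)))
    (by
      have := congrArg WithLp.ofLp hs
      rw [WithLp.ofLp_sum] at this
      exact this)
  let e := List.getEquivOfForallCountEqOne L h1
  have hL : L.length = N := by simpa using Fintype.card_congr e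
  refine ⟨(finCongr hL.symm).trans e, fun k => ?_⟩
  have key : (∑ i ∈ Finset.univ.filter (fun i : Fin N => i.val < k),
      v (((finCongr hL.symm).trans e) i)).ofLp =
      ((L.take k).map (Matrix.of fun i => (v i).ofLp).row).sum := by
    have e1 : L.map (Matrix.of fun i => (v i).ofLp).row =
        List.ofFn fun i : Fin N => (v (((finCongr hL.symm).trans e) i)).ofLp := by
      refine List.ext_getElem (by simp [hL]) fun i _ _ => ?_
      rw [List.getElem_map, List.getElem_ofFn]
      rfl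
    rw [List.map_take, e1, List.sum_take_ofFn, WithLp.ofLp_sum]
  have h3 := h2 k
  rw [← key, hn, Fintype.card_fin] at h3
  refine (pow_le_pow_iff_left₀ (norm_nonneg _) (by positivity) two_ne_zero).1 ?_
  rw [mul_pow, Real.sq_sqrt (Nat.cast_nonneg d)]
  have : (0 : ℝ) ≤ d := Nat.cast_nonneg d
  linarith

end Vale.Agent.Results.P262.Steinitz
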