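import Vale.Agent.Results.P262.Sigma
import Vale.Agent.Results.P262.Steinitz

namespace Vale.Agent.Results.P262.Both

theorem result : ∃ C : ℝ, ∀ (d N : ℕ) (v : Fin N → EuclideanSpace ℝ (Fin d)),
    (∀ i, ‖v i‖ ≤ 1) →
    (∃ ε : Fin N → ℝ, (∀ i, ε i = 1 ∨ ε i = -1) ∧ ∀ k : ℕ,
      ‖∑ i ∈ Finset.univ.filter (fun i : Fin N => i.val < k), ε i • v i‖ ≤ C * Real.sqrt d) ∧
    (∑ i, v i = 0 → ∃ π : Equiv.Perm (Fin N), ∀ k : ℕ,
      ‖∑ i ∈ Finset.univ.filter (fun i : Fin N => i.val < k), v (π i)‖ ≤ C * Real.sqrt d) := by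
  obtain ⟨A, hA⟩ := Sigma.result
  obtain ⟨B, hB⟩ := Steinitz.result
  refine ⟨max A B, fun d N v hv => ⟨?_, fun hs => ?_⟩⟩
  · obtain ⟨ε, h1, h2⟩ := hA d N v hv
    exact ⟨ε, h1, fun k => (h2 k).trans
      (mul_le_mul_of_nonneg_right (le_max_left _ _) (Real.sqrt_nonneg _))⟩
  · obtain ⟨π, h⟩ := hB d N v hv hs
    exact ⟨π, fun k => (h k).trans
      (mul_le_mul_of_nonneg_right (le_max_right _ _) (Real.sqrt_nonneg _))⟩

end Vale.Agent.Results.P262.Both
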