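import Vale.Agent.P262S.Main

namespace Vale.Agent.Results.P262.Sigma
open Finset

theorem result : ∃ C : ℝ, ∀ (d N : ℕ) (v : Fin N → EuclideanSpace ℝ (Fin d)),
    (∀ i, ‖v i‖ ≤ 1) →
    ∃ ε : Fin N → ℝ, (∀ i, ε i = 1 ∨ ε i = -1) ∧ ∀ k : ℕ,
      ‖∑ i ∈ Finset.univ.filter (fun i : Fin N => i.val < k), ε i • v i‖ ≤ C * Real.sqrt d := by
  refine ⟨2 * (10 ^ 10 + 1), fun d N v hv => ?_⟩
  rcases Nat.eq_zero_or_pos d with rfl | hd
  · exact ⟨fun _ => 1, fun _ => Or.inl rfl, fun k => by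
      rw [Subsingleton.elim (∑ _ ∈ _, _) 0]; simp⟩
  rcases Nat.eq_zero_or_pos N with rfl | hN
  · exact ⟨fun _ => 1, fun _ => Or.inl rfl, fun k => by simp; positivity⟩
  obtain ⟨ε, h1, h2⟩ := Vale.Agent.P262S.signs_bound (N := N)
    (v := fun i => if h : i < N then v ⟨i, h⟩ else 0) hN
    (fun i => by split_ifs <;> simp [hv]) (by rw [finrank_euclideanSpace_fin]; exact hd)
  refine ⟨fun i => ε i, fun i => h1 i, fun k => ?_⟩
  have h3 := h2 (min k N) (min_le_right _ _)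
  have e : ∑ i ∈ Finset.univ.filter (fun i : Fin N => i.val < k), ε i • v i =
      ∑ i ∈ range (min k N), ε i • (if h : i < N then v ⟨i, h⟩ else 0) := by
    refine sum_bij (fun i _ => i.val) (fun i hi => ?_) (fun i _ j _ h => Fin.ext h)
      (fun i hi => ?_) fun i _ => by simp
    · simpa using hi
    · rw [mem_range, lt_min_iff] at hi
      exact ⟨⟨i, hi.2⟩, by simpa using hi.1, rfl⟩
  have h4 : 1 ≤ Real.sqrt d := Real.one_le_sqrt.2 (by exact_mod_cast hd)
  rw [finrank_euclideanSpace_fin] at h3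
  rw [e]
  linarith

end Vale.Agent.Results.P262.Sigma
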